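import Mathlib

/-!
Abstract tensor calculus of a minimal hypersurface of the unit sphere.  `D a` is the derivation in
the direction of the tangential part of the basis vector `a`, `F` and `N` are the components of the
position and of the unit normal.
-/

namespace Vale.Agent.P224.Gap

open Finset

variable {ι 𝒜 : Type*} [Fintype ι] [DecidableEq ι] [CommRing 𝒜] [Algebra ℝ 𝒜]

/-- the differential relations -/
structure Sys (D : ι → Derivation ℝ 𝒜 𝒜) (F N : ι → 𝒜) : Prop where
  FF : ∑ a, F a * F a = 1
  NN : ∑ a, N a * N a = 1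
  FN : ∑ a, F a * N a = 0
  DF : ∀ a b, D a (F b) = (if a = b then 1 else 0) - F a * F b - N a * N b
  FD : ∀ h, ∑ a, F a * D a h = 0
  ND : ∀ h, ∑ a, N a * D a h = 0
  symm : ∀ a b, D a (N b) = D b (N a)
  comm : ∀ a b h, D a (D b h) - D b (D a h) = F a * D b h - F b * D a h
    + N a * ∑ c, D b (N c) * D c h - N b * ∑ c, D a (N c) * D c h
  tr : ∑ a, D a (N a) = 0

variable {D : ι → Derivation ℝ 𝒜 𝒜} {F N : ι → 𝒜}

/-- second fundamental form -/
def sA (D : ι → Derivation ℝ 𝒜 𝒜) (N : ι → 𝒜) (a b : ι) : 𝒜 := - D a (N b)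

/-- its square -/
def sq (D : ι → Derivation ℝ 𝒜 𝒜) (N : ι → 𝒜) (a b : ι) : 𝒜 :=
  ∑ c, sA D N a c * sA D N c b

/-- its squared norm -/
def sS (D : ι → Derivation ℝ 𝒜 𝒜) (N : ι → 𝒜) : 𝒜 := ∑ a, ∑ b, sA D N a b * sA D N a b

/-- the trace of its cube -/
def sT (D : ι → Derivation ℝ 𝒜 𝒜) (N : ι → 𝒜) : 𝒜 := ∑ a, ∑ b, sA D N a b * sq D N a b

/-- the trace of its fourth power -/
def sR (D : ι → Derivation ℝ 𝒜 𝒜) (N : ι → 𝒜) : 𝒜 := ∑ a, ∑ b, sq D N a b * sq D N a b

namespace Sys

variable (h : Sys D F N)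
include h

lemma DN (a b : ι) : D a (N b) = - sA D N a b := by simp [sA]

lemma A_symm (a b : ι) : sA D N a b = sA D N b a := by
  unfold sA; rw [h.symm]

lemma FA (b : ι) : ∑ a, F a * sA D N a b = 0 := by
  have := h.FD (N b)
  simp only [sA, mul_neg, sum_neg_distrib, this, neg_zero]

lemma NA (b : ι) : ∑ a, N a * sA D N a b = 0 := by
  have := h.ND (N b)
  simp only [sA, mul_neg, sum_neg_distrib, this, neg_zero]

lemma FA' (b : ι) : ∑ a, F a * sA D N b a = 0 := by
  simp only [fun a => h.A_symm b a, h.FA]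

lemma NA' (b : ι) : ∑ a, N a * sA D N b a = 0 := by
  simp only [fun a => h.A_symm b a, h.NA]

lemma trA : ∑ a, sA D N a a = 0 := by
  simp only [sA, sum_neg_distrib, h.tr, neg_zero]

lemma q_symm (a b : ι) : sq D N a b = sq D N b a := by
  unfold sq
  refine sum_congr rfl fun c _ => ?_
  rw [h.A_symm a c, h.A_symm c b, mul_comm]

lemma q_eq (a b : ι) : sq D N a b = ∑ c, sA D N a c * sA D N b c := by
  unfold sq
  refine sum_congr rfl fun c _ => ?_
  rw [h.A_symm c b]

lemma Fq (b : ι) : ∑ a, F a * sq D N a b = 0 := by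
  unfold sq
  simp only [mul_sum, ← mul_assoc]
  rw [sum_comm]
  simp only [← sum_mul, h.FA, zero_mul, sum_const_zero]

lemma Nq (b : ι) : ∑ a, N a * sq D N a b = 0 := by
  unfold sq
  simp only [mul_sum, ← mul_assoc]
  rw [sum_comm]
  simp only [← sum_mul, h.NA, zero_mul, sum_const_zero]

lemma Fq' (b : ι) : ∑ a, F a * sq D N b a = 0 := by
  simp only [fun a => h.q_symm b a, h.Fq]

lemma Nq' (b : ι) : ∑ a, N a * sq D N b a = 0 := by
  simp only [fun a => h.q_symm b a, h.Nq]

lemma trq : ∑ a, sq D N a a = sS D N := by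
  unfold sS
  exact sum_congr rfl fun a _ => h.q_eq a a

/-- Codazzi -/
lemma codazzi (a b c : ι) : D a (sA D N b c) = D b (sA D N a c) + F a * sA D N b c
    - F b * sA D N a c + N b * sq D N a c - N a * sq D N b c := by
  have h1 := h.comm a b (N c)
  simp only [h.DN, map_neg] at h1
  have e1 : ∀ a, ∑ d, -sA D N a d * -sA D N d c = sq D N a c := by
    intro a
    unfold sq
    refine sum_congr rfl fun d _ => ?_
    ring
  rw [e1, e1] at h1
  linear_combination -h1

lemma div (b : ι) : ∑ a, D a (sA D N a b) = N b * sS D N := by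
  have h1 : ∀ a, D a (sA D N a b) = D b (sA D N a a) + F a * sA D N b a
      - F b * sA D N a a + N b * sq D N a a - N a * sq D N b a := by
    intro a
    rw [h.A_symm a b]
    exact h.codazzi a b a
  simp only [h1, sum_add_distrib, sum_sub_distrib, ← mul_sum, h.FA', h.trA, h.trq, h.Nq',
    ← map_sum]
  simp

lemma DA_A (c : ι) : ∑ a, ∑ b, sA D N a b * D c (sA D N a b) * 2 = D c (sS D N) := by
  unfold sS
  simp only [map_sum, Derivation.leibniz, smul_eq_mul]
  refine sum_congr rfl fun a _ => sum_congr rfl fun b _ => ?_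
  ring

/-- the divergence of the square of the second fundamental form -/
lemma div_q (c : ι) : 2 * ∑ b, D b (sq D N b c)
    = D c (sS D N) - 2 * (F c * sS D N) + 2 * (N c * sT D N) := by
  have h1 : ∀ b, D b (sq D N b c) = ∑ d, (D b (sA D N b d) * sA D N d c
      + sA D N b d * D b (sA D N c d)) := by
    intro b
    unfold sq
    simp only [map_sum, Derivation.leibniz, smul_eq_mul]
    refine sum_congr rfl fun d _ => ?_
    rw [h.A_symm d c]
    ring
  have h2 : ∑ b, ∑ d, D b (sA D N b d) * sA D N d c = 0 := by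
    rw [sum_comm]
    simp only [← sum_mul, h.div]
    have : ∑ d, N d * sS D N * sA D N d c = sS D N * ∑ d, N d * sA D N d c := by
      rw [mul_sum]
      exact sum_congr rfl fun d _ => by ring
    rw [this, h.NA, mul_zero]
  have h3 : ∀ b d, sA D N b d * D b (sA D N c d) = sA D N b d * D c (sA D N b d)
      + (F b * sA D N b d) * sA D N c d - F c * (sA D N b d * sA D N b d)
      + N c * (sA D N b d * sq D N b d) - (N b * sA D N b d) * sq D N c d := by
    intro b d
    rw [h.codazzi b c d]
    ring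
  have h4 : ∑ b, ∑ d, (F b * sA D N b d) * sA D N c d = 0 := by
    rw [sum_comm]
    simp only [← sum_mul, h.FA, zero_mul, sum_const_zero]
  have h5 : ∑ b, ∑ d, (N b * sA D N b d) * sq D N c d = 0 := by
    rw [sum_comm]
    simp only [← sum_mul, h.NA, zero_mul, sum_const_zero]
  simp only [h1, sum_add_distrib, h2, h3, sum_sub_distrib, h4, h5, ← mul_sum]
  have h6 := h.DA_A c
  simp only [← sum_mul] at h6
  rw [← h6]
  unfold sS sT
  ring

lemma D_NN (a b c : ι) : D a (N b * N c) = - (sA D N a b * N c + N b * sA D N a c) := by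
  rw [Derivation.leibniz, h.DN, h.DN]
  simp only [smul_eq_mul]
  ring

lemma lap_N (b : ι) : ∑ a, D a (D a (N b)) = - (N b * sS D N) := by
  simp only [h.DN, map_neg, sum_neg_distrib, h.div]

/-- Laplacian of the products of components of the normal -/
lemma lap_NN (b c : ι) : ∑ a, D a (D a (N b * N c))
    = 2 * sq D N b c - 2 * (sS D N * (N b * N c)) := by
  have h1 : ∀ a, D a (D a (N b * N c)) = N b * D a (D a (N c)) + N c * D a (D a (N b))
      + 2 * (sA D N b a * sA D N a c) := by
    intro a
    rw [Derivation.leibniz]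
    simp only [map_add, smul_eq_mul, Derivation.leibniz, h.DN, map_neg]
    rw [h.A_symm b a]
    ring
  simp only [h1, sum_add_distrib, ← mul_sum, h.lap_N]
  have : ∑ a, sA D N b a * sA D N a c = sq D N b c := rfl
  rw [this]
  ring

/-- the corrected derivative of the second fundamental form (its intrinsic covariant derivative) -/
def _root_.Vale.Agent.P224.Gap.sC (D : ι → Derivation ℝ 𝒜 𝒜) (F N : ι → 𝒜) (a b c : ι) : 𝒜 :=
  D a (sA D N b c) + F b * sA D N a c - N b * sq D N a c + F c * sA D N a b - N c * sq D N a b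

lemma F_DA (a c : ι) : ∑ b, F b * D a (sA D N b c) = - sA D N a c := by
  have h1 : ∑ b, D a (F b * sA D N b c) = 0 := by
    rw [← map_sum, h.FA, map_zero]
  simp only [Derivation.leibniz, smul_eq_mul, sum_add_distrib, h.DF] at h1
  have h2 : ∑ b, sA D N b c * ((if a = b then 1 else 0) - F a * F b - N a * N b)
      = sA D N a c := by
    have e : ∀ b, sA D N b c * ((if a = b then 1 else 0) - F a * F b - N a * N b)
        = (if a = b then sA D N b c else 0) - F a * (F b * sA D N b c)
          - N a * (N b * sA D N b c) := by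
      intro b
      split_ifs <;> ring
    simp only [e, sum_sub_distrib, ← mul_sum, h.FA, h.NA]
    simp
  rw [h2] at h1
  linear_combination h1

lemma N_DA (a c : ι) : ∑ b, N b * D a (sA D N b c) = sq D N a c := by
  have h1 : ∑ b, D a (N b * sA D N b c) = 0 := by
    rw [← map_sum, h.NA, map_zero]
  simp only [Derivation.leibniz, smul_eq_mul, sum_add_distrib, h.DN] at h1
  have h2 : ∑ b, sA D N b c * - sA D N a b = - sq D N a c := by
    unfold sq
    rw [← sum_neg_distrib]
    exact sum_congr rfl fun b _ => by ring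
  rw [h2] at h1
  linear_combination h1

lemma DA_symm (a b c : ι) : D a (sA D N b c) = D a (sA D N c b) := by rw [h.A_symm]

lemma N_Dq (a b : ι) : ∑ c, N c * D a (sq D N c b) = ∑ c, sA D N a c * sq D N c b := by
  have h1 : ∑ c, D a (N c * sq D N c b) = 0 := by
    rw [← map_sum, h.Nq, map_zero]
  simp only [Derivation.leibniz, smul_eq_mul, sum_add_distrib, h.DN] at h1
  have h2 : ∑ c, sq D N c b * - sA D N a c = - ∑ c, sA D N a c * sq D N c b := by
    rw [← sum_neg_distrib]
    exact sum_congr rfl fun b _ => by ring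
  rw [h2] at h1
  linear_combination h1

/-- the Laplacian of the second fundamental form, before contraction -/
lemma lap_A (b c : ι) : ∑ a, D a (D a (sA D N b c)) =
    D b (N c * sS D N) - sA D N b c - F b * (N c * sS D N) - ∑ d, sA D N b d * sq D N d c
      + N b * ∑ a, ∑ d, sA D N a d * D d (sA D N a c)
      + (∑ a, D a (F a)) * sA D N b c - sA D N b c - F b * (N c * sS D N)
      - ∑ a, sA D N a b * sq D N a c + N b * ∑ a, D a (sq D N a c) := by
  have h1 : ∀ a, D a (D a (sA D N b c)) = D a (D b (sA D N a c))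
      + (D a (F a) * sA D N b c + F a * D a (sA D N b c))
      - (D a (F b) * sA D N a c + F b * D a (sA D N a c))
      + (N b * D a (sq D N a c) - sA D N a b * sq D N a c)
      - (N a * D a (sq D N b c) - sA D N a a * sq D N b c) := by
    intro a
    conv_lhs => rw [h.codazzi a b c]
    simp only [map_add, map_sub, Derivation.leibniz, smul_eq_mul, h.DN]
    ring
  have h2 : ∀ a, D a (D b (sA D N a c)) = D b (D a (sA D N a c)) + (F a * D b (sA D N a c)
      - F b * D a (sA D N a c) - N a * ∑ d, sA D N b d * D d (sA D N a c)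
      + N b * ∑ d, sA D N a d * D d (sA D N a c)) := by
    intro a
    have := h.comm a b (sA D N a c)
    simp only [h.DN, neg_mul, sum_neg_distrib, mul_neg] at this
    linear_combination this
  have h3 : ∑ a, N a * ∑ d, sA D N b d * D d (sA D N a c)
      = ∑ d, sA D N b d * sq D N d c := by
    simp only [mul_sum]
    rw [sum_comm]
    refine sum_congr rfl fun d _ => ?_
    rw [← h.N_DA d c, mul_sum]
    exact sum_congr rfl fun a _ => by ring
  have h4 : ∑ a, D a (F b) * sA D N a c = sA D N b c := by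
    have e : ∀ a, D a (F b) * sA D N a c = (if a = b then sA D N a c else 0)
        - F b * (F a * sA D N a c) - N b * (N a * sA D N a c) := by
      intro a
      rw [h.DF]
      split_ifs <;> ring
    simp only [e, sum_sub_distrib, ← mul_sum, h.FA, h.NA]
    simp
  have h5 : ∑ a, sA D N a a * sq D N b c = 0 := by
    rw [← sum_mul, h.trA, zero_mul]
  simp only [h1, h2, sum_add_distrib, sum_sub_distrib, ← map_sum, h.div, h.F_DA, ← mul_sum, h3,
    ← sum_mul, h.FD, h4, h.ND]
  rw [← sum_mul] at h5
  rw [h5]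
  ring

lemma A_lap_A : ∑ b, ∑ c, sA D N b c * ∑ a, D a (D a (sA D N b c)) =
    (∑ a, D a (F a)) * sS D N - 2 * sS D N - sS D N ^ 2 - 2 * sR D N := by
  have e1 : ∑ b, ∑ c, sA D N b c * D b (N c * sS D N) = - sS D N ^ 2 := by
    have : ∀ b c, sA D N b c * D b (N c * sS D N) = N c * sA D N b c * D b (sS D N)
        - sS D N * (sA D N b c * sA D N b c) := by
      intro b c
      rw [Derivation.leibniz, h.DN]
      simp only [smul_eq_mul]
      ring
    simp only [this, sum_sub_distrib, ← sum_mul, h.NA', ← mul_sum]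
    have e : ∑ b, ∑ c, sA D N b c * sA D N b c = sS D N := rfl
    rw [e]
    simp
    ring
  have e2 : ∀ X : ι → 𝒜, ∑ b, ∑ c, sA D N b c * (F b * X c) = 0 := by
    intro X
    rw [sum_comm]
    have : ∀ c, ∑ b, sA D N b c * (F b * X c) = X c * ∑ b, F b * sA D N b c := by
      intro c
      rw [mul_sum]
      exact sum_congr rfl fun b _ => by ring
    simp only [this, h.FA, mul_zero, sum_const_zero]
  have e3 : ∀ X : ι → 𝒜, ∑ b, ∑ c, sA D N b c * (N b * X c) = 0 := by
    intro X
    rw [sum_comm]
    have : ∀ c, ∑ b, sA D N b c * (N b * X c) = X c * ∑ b, N b * sA D N b c := by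
      intro c
      rw [mul_sum]
      exact sum_congr rfl fun b _ => by ring
    simp only [this, h.NA, mul_zero, sum_const_zero]
  have e4 : ∑ b, ∑ c, sA D N b c * ∑ d, sA D N b d * sq D N d c = sR D N := by
    have : ∀ b c, sA D N b c * ∑ d, sA D N b d * sq D N d c
        = ∑ d, sA D N d b * sA D N b c * sq D N d c := by
      intro b c
      rw [mul_sum]
      refine sum_congr rfl fun d _ => ?_
      rw [h.A_symm b d]
      ring
    simp only [this]
    have h2 : ∑ b, ∑ c, ∑ d, sA D N d b * sA D N b c * sq D N d c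
        = ∑ d, ∑ c, ∑ b, sA D N d b * sA D N b c * sq D N d c := by
      rw [sum_comm]
      simp only [fun c => sum_comm (s := univ) (t := univ)
        (f := fun b d => sA D N d b * sA D N b c * sq D N d c)]
      rw [sum_comm]
    rw [h2]
    unfold sR
    refine sum_congr rfl fun d _ => sum_congr rfl fun c _ => ?_
    rw [← sum_mul]
    rfl
  have e5 : ∑ b, ∑ c, sA D N b c * ∑ a, sA D N a b * sq D N a c = sR D N := by
    rw [← e4]
    refine sum_congr rfl fun b _ => sum_congr rfl fun c _ => ?_
    congr 1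
    exact sum_congr rfl fun a _ => by rw [h.A_symm a b]
  have e6 : ∀ b c, sA D N b c * ∑ a, D a (D a (sA D N b c))
      = sA D N b c * D b (N c * sS D N) - 2 * (sA D N b c * sA D N b c)
        - 2 * (sA D N b c * (F b * (N c * sS D N)))
        - sA D N b c * ∑ d, sA D N b d * sq D N d c
        + sA D N b c * (N b * ∑ a, ∑ d, sA D N a d * D d (sA D N a c))
        + (∑ a, D a (F a)) * (sA D N b c * sA D N b c)
        - sA D N b c * ∑ a, sA D N a b * sq D N a c
        + sA D N b c * (N b * ∑ a, D a (sq D N a c)) := by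
    intro b c
    rw [h.lap_A b c]
    ring
  simp only [e6, sum_add_distrib, sum_sub_distrib, e1, e4, e5, ← mul_sum, e2, e3]
  have e : ∑ b, ∑ c, sA D N b c * sA D N b c = sS D N := rfl
  rw [e]
  ring

/-- Laplacian of the squared norm -/
lemma lap_S_aux : ∑ a, D a (D a (sS D N)) = 2 * ∑ a, ∑ b, ∑ c, D a (sA D N b c) ^ 2
    + 2 * ((∑ a, D a (F a)) * sS D N - 2 * sS D N - sS D N ^ 2 - 2 * sR D N) := by
  have h1 : ∀ a, D a (D a (sS D N)) = ∑ b, ∑ c, (2 * D a (sA D N b c) ^ 2
      + 2 * (sA D N b c * D a (D a (sA D N b c)))) := by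
    intro a
    unfold sS
    simp only [map_sum, Derivation.leibniz, smul_eq_mul, map_add]
    refine sum_congr rfl fun b _ => sum_congr rfl fun c _ => ?_
    ring
  simp only [h1, sum_add_distrib, ← mul_sum]
  rw [← h.A_lap_A]
  congr 2
  simp only [mul_sum]
  rw [sum_comm]
  refine sum_congr rfl fun b _ => ?_
  rw [sum_comm]

/-- squared norm of the intrinsic covariant derivative -/
lemma sum_C_sq : ∑ a, ∑ b, ∑ c, sC D F N a b c ^ 2 =
    ∑ a, ∑ b, ∑ c, D a (sA D N b c) ^ 2 - 2 * sS D N - 2 * sR D N := by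
  -- for fixed a
  have key : ∀ a, ∑ b, ∑ c, sC D F N a b c ^ 2 = ∑ b, ∑ c, D a (sA D N b c) ^ 2
      - 2 * ∑ c, sA D N a c * sA D N a c - 2 * ∑ c, sq D N a c * sq D N a c := by
    intro a
    have e0 : ∀ b c, sC D F N a b c ^ 2 = D a (sA D N b c) ^ 2
        + 2 * (F b * D a (sA D N b c)) * sA D N a c
        - 2 * (N b * D a (sA D N b c)) * sq D N a c
        + 2 * (F c * D a (sA D N c b)) * sA D N a b
        - 2 * (N c * D a (sA D N c b)) * sq D N a b
        + (F b * F b) * (sA D N a c * sA D N a c)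
        + (N b * N b) * (sq D N a c * sq D N a c)
        + (F c * F c) * (sA D N a b * sA D N a b)
        + (N c * N c) * (sq D N a b * sq D N a b)
        - 2 * (F b * N b) * (sA D N a c * sq D N a c)
        + 2 * ((F b * sA D N a b) * (F c * sA D N a c))
        - 2 * ((F b * sq D N a b) * (N c * sA D N a c))
        - 2 * ((N b * sA D N a b) * (F c * sq D N a c))
        + 2 * ((N b * sq D N a b) * (N c * sq D N a c))
        - 2 * (F c * N c) * (sA D N a b * sq D N a b) := by
      intro b c
      unfold sC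
      rw [h.A_symm c b]
      ring
    simp only [e0, sum_add_distrib, sum_sub_distrib]
    have s1 : ∑ b, ∑ c, 2 * (F b * D a (sA D N b c)) * sA D N a c
        = - 2 * ∑ c, sA D N a c * sA D N a c := by
      rw [sum_comm, mul_sum]
      refine sum_congr rfl fun c _ => ?_
      rw [← sum_mul, ← mul_sum, h.F_DA]
      ring
    have s2 : ∑ b, ∑ c, 2 * (N b * D a (sA D N b c)) * sq D N a c
        = 2 * ∑ c, sq D N a c * sq D N a c := by
      rw [sum_comm, mul_sum]
      refine sum_congr rfl fun c _ => ?_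
      rw [← sum_mul, ← mul_sum, h.N_DA]
      ring
    have s3 : ∑ b, ∑ c, 2 * (F c * D a (sA D N c b)) * sA D N a b
        = - 2 * ∑ c, sA D N a c * sA D N a c := by
      rw [mul_sum]
      refine sum_congr rfl fun c _ => ?_
      rw [← sum_mul, ← mul_sum, h.F_DA]
      ring
    have s4 : ∑ b, ∑ c, 2 * (N c * D a (sA D N c b)) * sq D N a b
        = 2 * ∑ c, sq D N a c * sq D N a c := by
      rw [mul_sum]
      refine sum_congr rfl fun c _ => ?_
      rw [← sum_mul, ← mul_sum, h.N_DA]
      ring
    have s5 : ∑ b, ∑ c, (F b * F b) * (sA D N a c * sA D N a c)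
        = ∑ c, sA D N a c * sA D N a c := by
      simp only [← mul_sum, ← sum_mul, h.FF, one_mul]
    have s6 : ∑ b, ∑ c, (N b * N b) * (sq D N a c * sq D N a c)
        = ∑ c, sq D N a c * sq D N a c := by
      simp only [← mul_sum, ← sum_mul, h.NN, one_mul]
    have s7 : ∑ b, ∑ c, (F c * F c) * (sA D N a b * sA D N a b)
        = ∑ c, sA D N a c * sA D N a c := by
      simp only [← sum_mul, h.FF, one_mul]
    have s8 : ∑ b, ∑ c, (N c * N c) * (sq D N a b * sq D N a b)
        = ∑ c, sq D N a c * sq D N a c := by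
      simp only [← sum_mul, h.NN, one_mul]
    have s9 : ∑ b, ∑ c, 2 * (F b * N b) * (sA D N a c * sq D N a c) = 0 := by
      simp only [← mul_sum, ← sum_mul, h.FN]
      simp
    have s10 : ∑ b, ∑ c, 2 * ((F b * sA D N a b) * (F c * sA D N a c)) = 0 := by
      simp only [← mul_sum, h.FA', mul_zero, sum_const_zero]
    have s11 : ∑ b, ∑ c, 2 * ((F b * sq D N a b) * (N c * sA D N a c)) = 0 := by
      simp only [← mul_sum, h.NA', mul_zero, sum_const_zero]
    have s12 : ∑ b, ∑ c, 2 * ((N b * sA D N a b) * (F c * sq D N a c)) = 0 := by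
      simp only [← mul_sum, h.Fq', mul_zero, sum_const_zero]
    have s13 : ∑ b, ∑ c, 2 * ((N b * sq D N a b) * (N c * sq D N a c)) = 0 := by
      simp only [← mul_sum, h.Nq', mul_zero, sum_const_zero]
    have s14 : ∑ b, ∑ c, 2 * (F c * N c) * (sA D N a b * sq D N a b) = 0 := by
      simp only [← sum_mul, ← mul_sum, h.FN]
      simp
    rw [s1, s2, s3, s4, s5, s6, s7, s8, s9, s10, s11, s12, s13, s14]
    ring
  simp only [key, sum_sub_distrib, ← mul_sum]
  rfl

/-- Simons' identity -/
theorem simons : ∑ a, D a (D a (sS D N)) = 2 * ∑ a, ∑ b, ∑ c, sC D F N a b c ^ 2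
    + 2 * (((∑ a, D a (F a)) - sS D N) * sS D N) := by
  rw [h.lap_S_aux, h.sum_C_sq]
  ring

lemma sum_DF : ∑ a, D a (F a) = (Fintype.card ι : 𝒜) - 2 := by
  simp only [h.DF, sum_sub_distrib, if_true, h.FF, h.NN]
  simp
  ring

end Sys

end Vale.Agent.P224.Gap
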