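import Vale.Agent.P224.Gap.Geo

/-!
Commutator of the operators dl.
-/

namespace Vale.Agent.P224.FV

open Matrix MeasureTheory Module Function Set
open scoped RealInnerProductSpace Topology ContDiff Manifold

set_option linter.unusedSectionVars false

section

variable {V W M : Type*} [NormedAddCommGroup V] [InnerProductSpace ℝ V] [FiniteDimensional ℝ V]
  [NormedAddCommGroup W] [InnerProductSpace ℝ W] [FiniteDimensional ℝ W]
  {X : Type*} [NormedAddCommGroup X] [NormedSpace ℝ X]
  [TopologicalSpace M] [ChartedSpace V M]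

lemma vW_fderiv {f : V → W} {u : V} (h : Function.Injective (fderiv ℝ f u)) (w : V) :
    vW f (fderiv ℝ f u w) u = w := by
  apply h
  rw [fderiv_vW]
  have h1 := inner_fderiv_sub_lT h (fderiv ℝ f u w) (w - vW f (fderiv ℝ f u w) u)
  rw [map_sub, fderiv_vW] at h1
  exact (sub_eq_zero.mp (inner_self_eq_zero.mp h1)).symm

lemma contDiffAt_vW {n : WithTop ℕ∞} {f : V → W} {u : V} (hf : ContDiffAt ℝ (n + 1) f u)
    (hG : (lG f u).det ≠ 0) (a : W) : ContDiffAt ℝ n (vW f a) u := by
  unfold vW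
  exact ContDiffAt.sum fun i _ => (contDiffAt_lW hf hG a i).smul contDiffAt_const

lemma dl_dl [IsManifold 𝓘(ℝ, V) ∞ M] {F : M → W} (hF : SphImm V F) (a b : W) {h : M → X}
    (hh : ContMDiff 𝓘(ℝ, V) 𝓘(ℝ, X) ∞ h) (p : M) :
    dl V F a (dl V F b h) p =
      fderiv ℝ (fderiv ℝ (rep (V := V) h p)) (chartAt V p p)
        (vW (rep (V := V) F p) a (chartAt V p p)) (vW (rep (V := V) F p) b (chartAt V p p))
      + fderiv ℝ (rep (V := V) h p) (chartAt V p p)
        (fderiv ℝ (vW (rep (V := V) F p) b) (chartAt V p p)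
          (vW (rep (V := V) F p) a (chartAt V p p))) := by
  have hI := immV_rep hF p
  have hpT : chartAt V p p ∈ (chartAt V p).target :=
    (chartAt V p).map_source (mem_chart_source _ p)
  have hG := (lG_det_pos (hI.inj _ hpT)).ne'
  have hfs : ContDiffAt ℝ 2 (rep (V := V) F p) (chartAt V p p) :=
    (hI.smooth.contDiffAt (hI.isOpen.mem_nhds hpT)).of_le (by norm_cast)
  have hhs : ContDiffAt ℝ 2 (rep (V := V) h p) (chartAt V p p) :=
    ((rep_contDiffOn hh p).contDiffAt ((chartAt V p).open_target.mem_nhds hpT)).of_le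
      (by norm_cast)
  have hev : rep (V := V) (dl V F b h) p =ᶠ[𝓝 (chartAt V p p)] fun v =>
      fderiv ℝ (rep (V := V) h p) v (vW (rep (V := V) F p) b v) := by
    filter_upwards [(chartAt V p).open_target.mem_nhds hpT] with v hv
    have hx : (chartAt V p).symm v ∈ (chartAt V p).source := (chartAt V p).map_target hv
    have e : rep (V := V) (dl V F b h) p v = dl V F b h ((chartAt V p).symm v) := rfl
    rw [e, dl_eq hF b hx (by
      rw [(chartAt V p).right_inv hv]; exact rep_differentiableAt hh p hv),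
      (chartAt V p).right_inv hv]
  have e0 : dl V F a (dl V F b h) p = fderiv ℝ (rep (V := V) (dl V F b h) p) (chartAt V p p)
      (vW (rep (V := V) F p) a (chartAt V p p)) := rfl
  rw [e0, hev.fderiv_eq]
  have d1 : DifferentiableAt ℝ (fderiv ℝ (rep (V := V) h p)) (chartAt V p p) :=
    (hhs.fderiv_right (m := 1) (by norm_num)).differentiableAt (by norm_num)
  have d2 : DifferentiableAt ℝ (vW (rep (V := V) F p) b) (chartAt V p p) :=
    (contDiffAt_vW (n := 1) hfs hG b).differentiableAt (by norm_num)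
  rw [(d1.hasFDerivAt.clm_apply d2.hasFDerivAt).fderiv]
  simp only [_root_.add_apply, ContinuousLinearMap.comp_apply, ContinuousLinearMap.flip_apply]
  rw [add_comm]

lemma dl_comm_aux [IsManifold 𝓘(ℝ, V) ∞ M] {F : M → W} (hF : SphImm V F) (a b : W) {h : M → X}
    (hh : ContMDiff 𝓘(ℝ, V) 𝓘(ℝ, X) ∞ h) (p : M) :
    dl V F a (dl V F b h) p - dl V F b (dl V F a h) p =
      fderiv ℝ (rep (V := V) h p) (chartAt V p p)
        (fderiv ℝ (vW (rep (V := V) F p) b) (chartAt V p p)
          (vW (rep (V := V) F p) a (chartAt V p p))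
          - fderiv ℝ (vW (rep (V := V) F p) a) (chartAt V p p)
          (vW (rep (V := V) F p) b (chartAt V p p))) := by
  have hpT : chartAt V p p ∈ (chartAt V p).target :=
    (chartAt V p).map_source (mem_chart_source _ p)
  have hhs : ContDiffAt ℝ 2 (rep (V := V) h p) (chartAt V p p) :=
    ((rep_contDiffOn hh p).contDiffAt ((chartAt V p).open_target.mem_nhds hpT)).of_le
      (by norm_cast)
  have hsymm := hhs.isSymmSndFDerivAt (by simp)
  rw [dl_dl hF a b hh, dl_dl hF b a hh, map_sub,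
    hsymm (vW (rep (V := V) F p) a (chartAt V p p)) (vW (rep (V := V) F p) b (chartAt V p p))]
  abel

/-- the commutator -/
lemma dl_comm [IsManifold 𝓘(ℝ, V) ∞ M] {F : M → W} (hF : SphImm V F) (a b : W) {h : M → X}
    (hh : ContMDiff 𝓘(ℝ, V) 𝓘(ℝ, X) ∞ h) (p : M) :
    dl V F a (dl V F b h) p - dl V F b (dl V F a h) p =
      dl V F (dl V F a (dl V F b F) p - dl V F b (dl V F a F) p) h p := by
  have hI := immV_rep hF p
  have hpT : chartAt V p p ∈ (chartAt V p).target :=
    (chartAt V p).map_source (mem_chart_source _ p)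
  rw [dl_comm_aux hF a b hh, dl_comm_aux hF a b hF.smooth]
  unfold dl
  rw [vW_fderiv (hI.inj _ hpT)]

/-- the commutator in terms of the normal -/
lemma dl_comm' [IsManifold 𝓘(ℝ, V) ∞ M] (hW : finrank ℝ W = finrank ℝ V + 2) {F : M → W}
    (hF : SphImm V F) {N : M → W} (hNs : ContMDiff 𝓘(ℝ, V) 𝓘(ℝ, W) ∞ N)
    (hN : ∀ x, IsUnitNormal V F x (N x)) (a b : W) {h : M → ℝ}
    (hh : ContMDiff 𝓘(ℝ, V) 𝓘(ℝ, ℝ) ∞ h) (p : M) :
    dl V F a (dl V F b h) p - dl V F b (dl V F a h) p =
      ⟪a, F p⟫ * dl V F b h p - ⟪b, F p⟫ * dl V F a h p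
      + ⟪a, N p⟫ * dl V F (dl V F b N p) h p - ⟪b, N p⟫ * dl V F (dl V F a N p) h p := by
  have e1 : ∀ a b : W, dl V F a (dl V F b F) p
      = - (⟪b, dl V F a F p⟫ • F p + ⟪b, F p⟫ • dl V F a F p
        + ⟪b, dl V F a N p⟫ • N p + ⟪b, N p⟫ • dl V F a N p) := by
    intro a b
    have hfun : dl V F b F = fun q => b - ⟪b, F q⟫ • F q - ⟪b, N q⟫ • N q := by
      funext q
      exact dl_F hW hF hN b q
    have dF := rep_diff_self (V := V) hF.smooth p
    have dN := rep_diff_self (V := V) hNs p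
    rw [hfun]
    have e : rep (V := V) (fun q => b - ⟪b, F q⟫ • F q - ⟪b, N q⟫ • N q) p
        = fun v => b - ⟪b, rep (V := V) F p v⟫ • rep (V := V) F p v
          - ⟪b, rep (V := V) N p v⟫ • rep (V := V) N p v := rfl
    have dbF : HasFDerivAt (fun v => ⟪b, rep (V := V) F p v⟫)
        ((innerSL ℝ b).comp (fderiv ℝ (rep (V := V) F p) (chartAt V p p))) (chartAt V p p) :=
      (innerSL ℝ b).hasFDerivAt.comp _ dF.hasFDerivAt
    have dbN : HasFDerivAt (fun v => ⟪b, rep (V := V) N p v⟫)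
        ((innerSL ℝ b).comp (fderiv ℝ (rep (V := V) N p) (chartAt V p p))) (chartAt V p p) :=
      (innerSL ℝ b).hasFDerivAt.comp _ dN.hasFDerivAt
    have hd := ((hasFDerivAt_const b (chartAt V p p)).sub (dbF.smul dF.hasFDerivAt)).sub
      (dbN.smul dN.hasFDerivAt)
    unfold dl
    rw [e]
    change (fderiv ℝ ((fun _ => b) - (fun v => ⟪b, rep (V := V) F p v⟫) • (rep (V := V) F p)
      - (fun v => ⟪b, rep (V := V) N p v⟫) • (rep (V := V) N p)) (chartAt V p p)) _ = _
    rw [hd.fderiv]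
    have hFp : rep (V := V) F p (chartAt V p p) = F p := rep_self F p
    have hNp : rep (V := V) N p (chartAt V p p) = N p := rep_self N p
    simp only [_root_.add_apply, _root_.sub_apply, _root_.zero_apply, _root_.smul_apply,
      ContinuousLinearMap.smulRight_apply, ContinuousLinearMap.comp_apply, innerSL_apply_apply,
      hFp, hNp]
    abel
  rw [dl_comm hF a b hh, e1, e1]
  have hs1 : ⟪b, dl V F a F p⟫ = ⟪a, dl V F b F p⟫ := by
    rw [real_inner_comm, dl_F_symm]
  have hs2 : ⟪b, dl V F a N p⟫ = ⟪a, dl V F b N p⟫ := by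
    rw [real_inner_comm, dl_N_symm hW hF hNs hN, real_inner_comm]
  have e2 : -(⟪b, dl V F a F p⟫ • F p + ⟪b, F p⟫ • dl V F a F p + ⟪b, dl V F a N p⟫ • N p
      + ⟪b, N p⟫ • dl V F a N p) - -(⟪a, dl V F b F p⟫ • F p + ⟪a, F p⟫ • dl V F b F p
      + ⟪a, dl V F b N p⟫ • N p + ⟪a, N p⟫ • dl V F b N p)
      = ⟪a, F p⟫ • dl V F b F p - ⟪b, F p⟫ • dl V F a F p
      + ⟪a, N p⟫ • dl V F b N p - ⟪b, N p⟫ • dl V F a N p := by
    rw [hs1, hs2]; abel
  rw [e2]
  have vadd : ∀ (x y : W), dl V F (x + y) h p = dl V F x h p + dl V F y h p := by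
    intro x y
    rw [dl_expand (x + y), dl_expand x, dl_expand y, ← Finset.sum_add_distrib]
    refine Finset.sum_congr rfl fun i _ => ?_
    rw [inner_add_right, add_smul]
  have vsmul : ∀ (c : ℝ) (x : W), dl V F (c • x) h p = c * dl V F x h p := by
    intro c x
    rw [dl_expand (c • x), dl_expand x, Finset.mul_sum]
    refine Finset.sum_congr rfl fun i _ => ?_
    rw [inner_smul_right, smul_eq_mul, smul_eq_mul, mul_assoc]
  have vsub : ∀ (x y : W), dl V F (x - y) h p = dl V F x h p - dl V F y h p := by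
    intro x y
    have : x - y = x + (-1 : ℝ) • y := by rw [neg_one_smul]; abel
    rw [this, vadd, vsmul]; ring
  rw [vsub, vadd, vsub, vsmul, vsmul, vsmul, vsmul, dl_proj hF, dl_proj hF]

end

end Vale.Agent.P224.FV
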