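import Vale.Agent.P224.Gap.SysM
import Vale.Agent.P224.Flat

namespace Vale.Agent.P224.Gap

open Matrix MeasureTheory Module Function Set Vale.Agent.P224 Vale.Agent.P224.FV
open scoped RealInnerProductSpace Topology ContDiff Manifold

set_option linter.unusedSectionVars false

section

variable {V W M : Type*} [NormedAddCommGroup V] [InnerProductSpace ℝ V] [FiniteDimensional ℝ V]
  [NormedAddCommGroup W] [InnerProductSpace ℝ W] [FiniteDimensional ℝ W]
  [TopologicalSpace M] [ChartedSpace V M]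

lemma normSqA_nonneg [IsManifold 𝓘(ℝ, V) ∞ M] (hW : finrank ℝ W = finrank ℝ V + 2) {F : M → W}
    (hF : SphImm V F) {N : M → W} (hNs : ContMDiff 𝓘(ℝ, V) 𝓘(ℝ, W) ∞ N)
    (hN : ∀ x, IsUnitNormal V F x (N x)) (x : M) : 0 ≤ normSqA V F x (N x) := by
  rw [← (trace_A hW hF hNs hN x).2]
  exact Finset.sum_nonneg fun a _ => Finset.sum_nonneg fun b _ => sq_nonneg _

/-- a minimal immersion not contained in a hyperplane has a point with nonzero second
fundamental form -/
theorem exists_normSqA_pos [IsManifold 𝓘(ℝ, V) ∞ M] [ConnectedSpace M]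
    (hW : finrank ℝ W = finrank ℝ V + 2) {F : M → W}
    (hF : SphImm V F) {N : M → W} (hNs : ContMDiff 𝓘(ℝ, V) 𝓘(ℝ, W) ∞ N)
    (hN : ∀ x, IsUnitNormal V F x (N x))
    (hne : ¬ ∃ a : W, a ≠ 0 ∧ ∀ x, ⟪F x, a⟫ = 0) : ∃ x, 0 < normSqA V F x (N x) := by
  by_contra h
  push Not at h
  apply hne
  apply totally_geodesic hW hF
  intro x n hn
  rw [normSqA_eq_nS hW hF hn, ← normSqA_eq_nS hW hF (hN x)]
  exact le_antisymm (h x) (normSqA_nonneg hW hF hNs hN x)

end

end Vale.Agent.P224.Gap
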