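import Vale.Agent.P224.FV.Green
import Vale.Agent.P224.FV.Geom

/-!
Second fundamental form and commutators in terms of the operators dl.
-/

namespace Vale.Agent.P224.FV

open Matrix MeasureTheory Module Function Set
open scoped RealInnerProductSpace Topology ContDiff Manifold

set_option linter.unusedSectionVars false

section

variable {V W M : Type*} [NormedAddCommGroup V] [InnerProductSpace ℝ V] [FiniteDimensional ℝ V]
  [NormedAddCommGroup W] [InnerProductSpace ℝ W] [FiniteDimensional ℝ W]
  {X : Type*} [NormedAddCommGroup X] [NormedSpace ℝ X]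
  [TopologicalSpace M] [ChartedSpace V M]

lemma rep_self (h : M → X) (p : M) : h ((chartAt V p).symm (chartAt V p p)) = h p := by
  rw [(chartAt V p).left_inv (mem_chart_source _ p)]

/-- the normal vector has no tangential part -/
lemma dl_normal [IsManifold 𝓘(ℝ, V) ∞ M] {F : M → W} (hF : SphImm V F) {N : M → W}
    (hN : ∀ x, IsUnitNormal V F x (N x)) (h : M → X) (p : M) :
    dl V F (N p) h p = 0 := by
  have hpT : chartAt V p p ∈ (chartAt V p).target :=
    (chartAt V p).map_source (mem_chart_source _ p)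
  have hNp : rep (V := V) N p (chartAt V p p) = N p := rep_self N p
  unfold dl
  have : vW (rep (V := V) F p) (N p) (chartAt V p p) = 0 := by
    have h0 : vW (rep (V := V) F p) (0 : W) (chartAt V p p) = 0 := by
      simp [vW, lW]
    rw [← h0]
    apply vW_congr
    intro j
    rw [inner_zero_left, real_inner_comm, ← hNp]
    exact normal_rep hF hN p hpT _
  rw [this, map_zero]

/-- the second fundamental form -/
lemma inner_dl_N [IsManifold 𝓘(ℝ, V) ∞ M] (hW : finrank ℝ W = finrank ℝ V + 2) {F : M → W}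
    (hF : SphImm V F) {N : M → W} (hNs : ContMDiff 𝓘(ℝ, V) 𝓘(ℝ, W) ∞ N)
    (hN : ∀ x, IsUnitNormal V F x (N x)) (a b : W) (p : M) :
    ⟪dl V F a N p, b⟫ = - ∑ i, ∑ j, lW (rep (V := V) F p) a i (chartAt V p p) *
      lW (rep (V := V) F p) b j (chartAt V p p) *
      ⟪pd (pd (rep (V := V) F p) j) i (chartAt V p p), N p⟫ := by
  have hI := immV_rep hF p
  have hpT : chartAt V p p ∈ (chartAt V p).target :=
    (chartAt V p).map_source (mem_chart_source _ p)
  have hFp : rep (V := V) F p (chartAt V p p) = F p := rep_self F p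
  have hNp : rep (V := V) N p (chartAt V p p) = N p := rep_self N p
  set f := rep (V := V) F p with hf
  set ν := rep (V := V) N p with hν
  set u := chartAt V p p with hu
  have hT := hI.isOpen.mem_nhds hpT
  have hfs : ContDiffAt ℝ 2 f u := (hI.smooth.contDiffAt hT).of_le (by norm_cast)
  have hfd : DifferentiableAt ℝ f u := hfs.differentiableAt (by norm_num)
  have hνd : DifferentiableAt ℝ ν u := rep_diff_self hNs p
  have h1 : ∀ w, ⟪fderiv ℝ ν u w, f u⟫ = 0 := by
    intro w
    have e1 : fderiv ℝ (fun v => ⟪ν v, f v⟫) u = fderiv ℝ (fun _ => (0 : ℝ)) u := by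
      apply Filter.EventuallyEq.fderiv_eq
      filter_upwards with v
      rw [real_inner_comm]
      exact (hN _).2.1
    have h2 := congrArg (fun L => L w) e1
    simp only [fderiv_inner_apply ℝ hνd hfd, fderiv_fun_const] at h2
    simp only [Pi.zero_apply, _root_.zero_apply] at h2
    rw [real_inner_comm _ (ν u), normal_rep hF hN p hpT w, zero_add] at h2
    exact h2
  have h2 : ∀ w, ⟪fderiv ℝ ν u w, ν u⟫ = 0 := by
    intro w
    have e1 : fderiv ℝ (fun v => ⟪ν v, ν v⟫) u = fderiv ℝ (fun _ => (1 : ℝ)) u := by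
      apply Filter.EventuallyEq.fderiv_eq
      filter_upwards with v
      rw [real_inner_self_eq_norm_sq]
      have : ‖ν v‖ = 1 := (hN _).1
      rw [this]; norm_num
    have h2 := congrArg (fun L => L w) e1
    simp only [fderiv_inner_apply ℝ hνd hνd, fderiv_fun_const] at h2
    simp only [Pi.zero_apply, _root_.zero_apply] at h2
    rw [real_inner_comm (fderiv ℝ ν u w) (ν u)] at h2
    linarith
  have h3 : ∀ w w', ⟪fderiv ℝ ν u w, fderiv ℝ f u w'⟫
      = - ⟪ν u, fderiv ℝ (fderiv ℝ f) u w w'⟫ := by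
    intro w w'
    have hfd2 : DifferentiableAt ℝ (fderiv ℝ f) u :=
      (hfs.fderiv_right (m := 1) (by norm_num)).differentiableAt (by norm_num)
    have hPd : HasFDerivAt (fun v => fderiv ℝ f v w')
        ((ContinuousLinearMap.apply ℝ W w').comp (fderiv ℝ (fderiv ℝ f) u)) u :=
      (ContinuousLinearMap.apply ℝ W w').hasFDerivAt.comp u hfd2.hasFDerivAt
    have e1 : fderiv ℝ (fun v => ⟪ν v, fderiv ℝ f v w'⟫) u = fderiv ℝ (fun _ => (0 : ℝ)) u := by
      apply Filter.EventuallyEq.fderiv_eq
      filter_upwards [hT] with v hv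
      rw [real_inner_comm]
      exact normal_rep hF hN p hv w'
    have h2 := congrArg (fun L => L w) e1
    simp only [fderiv_inner_apply ℝ hνd hPd.differentiableAt, fderiv_fun_const, hPd.fderiv] at h2
    simp only [Pi.zero_apply, _root_.zero_apply, ContinuousLinearMap.comp_apply,
      ContinuousLinearMap.apply_apply] at h2
    linarith
  have key : ⟪dl V F a N p, b⟫
      = ⟪fderiv ℝ ν u (vW f a u), fderiv ℝ f u (vW f b u)⟫ := by
    have hb := dl_F hW hF hN b p
    have hb' : dl V F b F p = fderiv ℝ f u (vW f b u) := rfl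
    have hb2 : b = fderiv ℝ f u (vW f b u) + ⟪b, F p⟫ • F p + ⟪b, N p⟫ • N p := by
      rw [← hb', hb]; abel
    have ha : dl V F a N p = fderiv ℝ ν u (vW f a u) := rfl
    rw [ha]
    conv_lhs => rw [hb2]
    rw [inner_add_right, inner_add_right, inner_smul_right, inner_smul_right, ← hFp, ← hNp,
      h1, h2]
    ring
  rw [key, h3]
  congr 1
  unfold vW
  simp only [map_sum, map_smul, _root_.sum_apply, _root_.smul_apply, inner_sum, inner_smul_right]
  rw [Finset.sum_comm]
  refine Finset.sum_congr rfl fun j _ => ?_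
  rw [Finset.mul_sum]
  refine Finset.sum_congr rfl fun i _ => ?_
  have e := lQ_eq hfs i j
  have e' : lQ f i j u = pd (pd f j) i u := rfl
  rw [← e, e', ← hNp, real_inner_comm (ν u)]
  ring

/-- the matrix of the tangential coordinates of the basis vectors -/
lemma LLt {f : V → W} {u : V} (hG : (lG f u).det ≠ 0) :
    (Matrix.of fun i a => lW f (stdOrthonormalBasis ℝ W a) i u) *
      (Matrix.of fun i a => lW f (stdOrthonormalBasis ℝ W a) i u)ᵀ = (lG f u)⁻¹ := by
  set e := stdOrthonormalBasis ℝ W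
  have h1 : (Matrix.of fun i a => lW f (e a) i u)
      = (lG f u)⁻¹ * Matrix.of fun j a => ⟪e a, lP f j u⟫ := by
    ext i a
    simp only [Matrix.of_apply, Matrix.mul_apply, lW]
  have h2 : (Matrix.of fun j a => ⟪e a, lP f j u⟫) * (Matrix.of fun j a => ⟪e a, lP f j u⟫)ᵀ
      = lG f u := by
    ext i j
    simp only [Matrix.mul_apply, Matrix.of_apply, Matrix.transpose_apply, lG]
    rw [← e.sum_inner_mul_inner (lP f i u) (lP f j u)]
    refine Finset.sum_congr rfl fun a _ => ?_
    rw [real_inner_comm (lP f i u)]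
  rw [h1, Matrix.transpose_mul, Matrix.transpose_nonsing_inv, lG_transpose]
  calc (lG f u)⁻¹ * (Matrix.of fun j a => ⟪e a, lP f j u⟫) *
        ((Matrix.of fun j a => ⟪e a, lP f j u⟫)ᵀ * (lG f u)⁻¹)
      = (lG f u)⁻¹ * ((Matrix.of fun j a => ⟪e a, lP f j u⟫) *
        (Matrix.of fun j a => ⟪e a, lP f j u⟫)ᵀ) * (lG f u)⁻¹ := by
        simp only [Matrix.mul_assoc]
    _ = _ := by
        rw [h2, Matrix.nonsing_inv_mul _ (isUnit_iff_ne_zero.mpr hG), Matrix.one_mul]

/-- traces of the second fundamental form in the ambient basis -/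
lemma trace_A [IsManifold 𝓘(ℝ, V) ∞ M] (hW : finrank ℝ W = finrank ℝ V + 2) {F : M → W}
    (hF : SphImm V F) {N : M → W} (hNs : ContMDiff 𝓘(ℝ, V) 𝓘(ℝ, W) ∞ N)
    (hN : ∀ x, IsUnitNormal V F x (N x)) (p : M) :
    ∑ a, ⟪dl V F (stdOrthonormalBasis ℝ W a) N p, stdOrthonormalBasis ℝ W a⟫
        = - meanCurv V F p (N p) ∧
    ∑ a, ∑ b, ⟪dl V F (stdOrthonormalBasis ℝ W a) N p, stdOrthonormalBasis ℝ W b⟫ ^ 2
        = normSqA V F p (N p) := by
  have hI := immV_rep hF p
  have hpT : chartAt V p p ∈ (chartAt V p).target :=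
    (chartAt V p).map_source (mem_chart_source _ p)
  have hG := (lG_det_pos (hI.inj _ hpT)).ne'
  have hfs : ContDiffAt ℝ 2 (rep (V := V) F p) (chartAt V p p) :=
    (hI.smooth.contDiffAt (hI.isOpen.mem_nhds hpT)).of_le (by norm_cast)
  set f := rep (V := V) F p with hf
  set u := chartAt V p p with hu
  set e := stdOrthonormalBasis ℝ W with he
  set L : Matrix (Fin (finrank ℝ V)) (Fin (finrank ℝ W)) ℝ :=
    Matrix.of fun i a => lW f (e a) i u with hL
  set H : Matrix (Fin (finrank ℝ V)) (Fin (finrank ℝ V)) ℝ :=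
    Matrix.of fun i j => ⟪pd (pd f j) i u, N p⟫ with hH
  set A : Matrix (Fin (finrank ℝ W)) (Fin (finrank ℝ W)) ℝ :=
    Matrix.of fun a b => ⟪dl V F (e a) N p, e b⟫ with hA
  have hHs : Hᵀ = H := by
    ext i j
    simp only [hH, Matrix.transpose_apply, Matrix.of_apply]
    have := lQ_symm hfs i j
    change pd (pd f j) i u = pd (pd f i) j u at this
    rw [this]
  have hLL : L * Lᵀ = (lG f u)⁻¹ := LLt hG
  have hAe : A = - (Lᵀ * H * L) := by
    ext a b
    rw [Matrix.neg_apply]
    simp only [hA, Matrix.of_apply]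
    rw [inner_dl_N hW hF hNs hN]
    congr 1
    simp only [Matrix.mul_apply, hL, hH, Matrix.of_apply, Matrix.transpose_apply, Finset.sum_mul]
    rw [Finset.sum_comm]
    refine Finset.sum_congr rfl fun i _ => Finset.sum_congr rfl fun j _ => ?_
    ring
  have hAt : Aᵀ = A := by
    rw [hAe, Matrix.transpose_neg, Matrix.transpose_mul, Matrix.transpose_mul, hHs,
      Matrix.transpose_transpose, Matrix.mul_assoc]
  have hsh : shapeMat f u (N p) = (lG f u)⁻¹ * H := rfl
  constructor
  · have h1 : ∑ a, ⟪dl V F (e a) N p, e a⟫ = A.trace := rfl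
    rw [h1, hAe, Matrix.trace_neg]
    congr 1
    unfold meanCurv
    rw [← hf, ← hu, hsh, Matrix.mul_assoc, Matrix.trace_mul_comm, Matrix.mul_assoc, hLL,
      Matrix.trace_mul_comm]
  · have h1 : ∑ a, ∑ b, ⟪dl V F (e a) N p, e b⟫ ^ 2 = (A * A).trace := by
      rw [Matrix.trace]
      simp only [Matrix.diag_apply, Matrix.mul_apply]
      refine Finset.sum_congr rfl fun a _ => Finset.sum_congr rfl fun b _ => ?_
      have : A b a = A a b := by
        conv_lhs => rw [← hAt]
        rfl
      rw [this, pow_two]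
      rfl
    rw [h1, hAe]
    unfold normSqA
    rw [← hf, ← hu, hsh, pow_two, neg_mul_neg]
    calc (Lᵀ * H * L * (Lᵀ * H * L)).trace = (Lᵀ * (H * (L * Lᵀ) * H * L)).trace := by
          simp only [Matrix.mul_assoc]
      _ = ((H * (L * Lᵀ) * H) * (L * Lᵀ)).trace := by
          rw [Matrix.trace_mul_comm]
          simp only [Matrix.mul_assoc]
      _ = _ := by
          rw [hLL, Matrix.trace_mul_comm]
          simp only [Matrix.mul_assoc]

end

end Vale.Agent.P224.FV
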