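import Vale.Agent.P224.Gap.Comm
import Vale.Agent.P224.Gap.Alg

/-!
The abstract tensor calculus applied to a minimal hypersurface: smoothness and the Laplacian of the
squared norm of the second fundamental form.
-/

namespace Vale.Agent.P224.Gap

open Matrix MeasureTheory Module Function Set Vale.Agent.P224 Vale.Agent.P224.FV
open scoped RealInnerProductSpace Topology ContDiff Manifold

set_option linter.unusedSectionVars false

section

variable {V W M : Type*} [NormedAddCommGroup V] [InnerProductSpace ℝ V] [FiniteDimensional ℝ V]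
  [NormedAddCommGroup W] [InnerProductSpace ℝ W] [FiniteDimensional ℝ W]
  [TopologicalSpace M] [ChartedSpace V M]

variable (V M) in
/-- the algebra of smooth functions -/
def smoothAlg : Subalgebra ℝ (M → ℝ) where
  carrier := {h | ContMDiff 𝓘(ℝ, V) 𝓘(ℝ, ℝ) ∞ h}
  mul_mem' := fun ha hb => ha.mul hb
  add_mem' := fun ha hb => ha.add hb
  algebraMap_mem' := fun _ => contMDiff_const

variable (V M) in
/-- the algebra of smooth functions, as a type -/
def SmAlg : Type _ := smoothAlg V M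

noncomputable instance : CommRing (SmAlg V M) := inferInstanceAs (CommRing (smoothAlg V M))

noncomputable instance : Algebra ℝ (SmAlg V M) := inferInstanceAs (Algebra ℝ (smoothAlg V M))

@[ext]
lemma SmAlg.ext {f g : SmAlg V M} (h : ∀ p, f.1 p = g.1 p) : f = g := Subtype.ext (funext h)

lemma dl_add [IsManifold 𝓘(ℝ, V) ∞ M] {F : M → W} (a : W) {h k : M → ℝ}
    (hh : ContMDiff 𝓘(ℝ, V) 𝓘(ℝ, ℝ) ∞ h) (hk : ContMDiff 𝓘(ℝ, V) 𝓘(ℝ, ℝ) ∞ k) (p : M) :
    dl V F a (fun q => h q + k q) p = dl V F a h p + dl V F a k p := by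
  unfold dl
  have e : rep (V := V) (fun q => h q + k q) p = fun u => rep (V := V) h p u + rep (V := V) k p u :=
    rfl
  rw [e, fderiv_fun_add (rep_diff_self hh p) (rep_diff_self hk p)]
  rfl

lemma dl_smul [IsManifold 𝓘(ℝ, V) ∞ M] {F : M → W} (a : W) {h : M → ℝ}
    (hh : ContMDiff 𝓘(ℝ, V) 𝓘(ℝ, ℝ) ∞ h) (c : ℝ) (p : M) :
    dl V F a (fun q => c * h q) p = c * dl V F a h p := by
  unfold dl
  have e : rep (V := V) (fun q => c * h q) p = fun u => c * rep (V := V) h p u :=
    rfl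
  rw [e, fderiv_const_mul (rep_diff_self hh p)]
  rfl

/-- the derivations -/
noncomputable def DM [IsManifold 𝓘(ℝ, V) ∞ M] {F : M → W} (hF : SphImm V F) (a : W) :
    Derivation ℝ (SmAlg V M) (SmAlg V M) :=
  Derivation.mk'
    { toFun := fun h => ⟨dl V F a h.1, contMDiff_dl hF a h.2⟩
      map_add' := fun h k => by
        ext p
        exact dl_add a h.2 k.2 p
      map_smul' := fun c h => by
        ext p
        exact dl_smul a h.2 c p }
    (fun h k => by
      ext p
      have := dl_mul (F := F) a h.2 k.2 p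
      simp only [LinearMap.coe_mk, smul_eq_mul]
      change dl V F a (fun q => h.1 q * k.1 q) p
        = h.1 p * dl V F a k.1 p + k.1 p * dl V F a h.1 p
      rw [this]
      ring)

/-- components of a smooth map -/
noncomputable def cM {G : M → W} (hG : ContMDiff 𝓘(ℝ, V) 𝓘(ℝ, W) ∞ G) (a : W) : SmAlg V M :=
  ⟨fun x => ⟪G x, a⟫, smooth_inner hG a⟩

lemma DM_apply [IsManifold 𝓘(ℝ, V) ∞ M] {F : M → W} (hF : SphImm V F) (a : W)
    (h : SmAlg V M) : (DM hF a h).1 = dl V F a h.1 := rfl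

lemma sum_val {ι : Type*} (s : Finset ι) (f : ι → SmAlg V M) (p : M) :
    (∑ i ∈ s, f i).1 p = ∑ i ∈ s, (f i).1 p := by
  rw [← Finset.sum_apply]
  exact congrFun (map_sum (smoothAlg V M).subtype f s) p

/-- the tensor calculus -/
theorem sysM [IsManifold 𝓘(ℝ, V) ∞ M] (hW : finrank ℝ W = finrank ℝ V + 2) {F : M → W}
    (hF : SphImm V F) (hmin : ∀ x n, IsUnitNormal V F x n → meanCurv V F x n = 0)
    {N : M → W} (hNs : ContMDiff 𝓘(ℝ, V) 𝓘(ℝ, W) ∞ N)
    (hN : ∀ x, IsUnitNormal V F x (N x)) :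
    Sys (fun i => DM hF (stdOrthonormalBasis ℝ W i))
      (fun i => cM hF.smooth (stdOrthonormalBasis ℝ W i))
      (fun i => cM hNs (stdOrthonormalBasis ℝ W i)) := by
  set e := stdOrthonormalBasis ℝ W with he
  have hsum : ∀ x y : W, ∑ i, ⟪x, e i⟫ * ⟪y, e i⟫ = ⟪x, y⟫ := by
    intro x y
    rw [← e.sum_inner_mul_inner x y]
    exact Finset.sum_congr rfl fun i _ => by rw [real_inner_comm y]
  have hFF : ∀ p, ⟪F p, F p⟫ = 1 := fun p => by
    rw [real_inner_self_eq_norm_sq, hF.unit]; norm_num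
  have hNN : ∀ p, ⟪N p, N p⟫ = 1 := fun p => by
    rw [real_inner_self_eq_norm_sq, (hN p).1]; norm_num
  have ee : ∀ i j, ⟪e i, e j⟫ = if i = j then (1 : ℝ) else 0 := fun i j =>
    orthonormal_iff_ite.mp e.orthonormal i j
  refine ⟨?_, ?_, ?_, ?_, ?_, ?_, ?_, ?_, ?_⟩
  · ext p
    rw [sum_val]
    exact (hsum (F p) (F p)).trans (hFF p)
  · ext p
    rw [sum_val]
    exact (hsum (N p) (N p)).trans (hNN p)
  · ext p
    rw [sum_val]
    exact (hsum (F p) (N p)).trans (hN p).2.1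
  · intro a b
    ext p
    have h1 : dl V F (e a) (fun q => ⟪F q, e b⟫) p = ⟪dl V F (e a) F p, e b⟫ :=
      dl_inner (e a) hF.smooth (e b) p
    rw [dl_F hW hF hN, inner_sub_left, inner_sub_left, real_inner_smul_left,
      real_inner_smul_left, ee] at h1
    rw [real_inner_comm (F p) (e a), real_inner_comm (N p) (e a)] at h1
    refine h1.trans ?_
    split_ifs <;> rfl
  · intro h
    ext p
    rw [sum_val]
    have := sum_pos_dl hF h.1 p
    refine Eq.trans ?_ this
    refine Finset.sum_congr rfl fun i _ => ?_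
    rw [real_inner_comm]
    rfl
  · intro h
    ext p
    rw [sum_val]
    have := dl_normal hF hN h.1 p
    rw [dl_expand] at this
    refine Eq.trans ?_ this
    refine Finset.sum_congr rfl fun i _ => ?_
    rw [real_inner_comm]
    rfl
  · intro a b
    ext p
    have h1 : dl V F (e a) (fun q => ⟪N q, e b⟫) p = ⟪dl V F (e a) N p, e b⟫ :=
      dl_inner (e a) hNs (e b) p
    have h2 : dl V F (e b) (fun q => ⟪N q, e a⟫) p = ⟪dl V F (e b) N p, e a⟫ :=
      dl_inner (e b) hNs (e a) p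
    refine h1.trans ?_
    rw [dl_N_symm hW hF hNs hN]
    exact h2.symm
  · intro a b h
    ext p
    have key := dl_comm' hW hF hNs hN (e a) (e b) h.2 p
    have h3 : ∀ b, dl V F (dl V F (e b) N p) h.1 p
        = ∑ c, dl V F (e b) (fun q => ⟪N q, e c⟫) p * dl V F (e c) h.1 p := by
      intro b
      rw [dl_expand]
      refine Finset.sum_congr rfl fun c _ => ?_
      rw [dl_inner (e b) hNs (e c) p, real_inner_comm, smul_eq_mul]
    rw [h3, h3] at key
    rw [real_inner_comm (F p) (e a), real_inner_comm (F p) (e b), real_inner_comm (N p) (e a),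
      real_inner_comm (N p) (e b)] at key
    refine Eq.trans ?_ (key.trans ?_)
    · rfl
    · have s1 : ∀ b, (∑ c, DM hF (e b) (cM hNs (e c)) * DM hF (e c) h).1 p
          = ∑ c, dl V F (e b) (fun q => ⟪N q, e c⟫) p * dl V F (e c) h.1 p := fun b => by
        rw [sum_val]; rfl
      rw [← s1, ← s1]
      rfl
  · ext p
    rw [sum_val]
    have h1 := (trace_A hW hF hNs hN p).1
    rw [hmin p _ (hN p), neg_zero] at h1
    refine Eq.trans ?_ h1
    refine Finset.sum_congr rfl fun i _ => ?_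
    exact dl_inner (e i) hNs (e i) p

lemma mul_val (f g : SmAlg V M) (p : M) : (f * g).1 p = f.1 p * g.1 p := rfl

lemma neg_val (f : SmAlg V M) (p : M) : (-f).1 p = -(f.1 p) := rfl

lemma sS_apply {ι : Type*} [Fintype ι] (D : ι → Derivation ℝ (SmAlg V M) (SmAlg V M))
    (Nc : ι → SmAlg V M) (p : M) :
    (sS D Nc).1 p = ∑ a, ∑ b, ((D a (Nc b)).1 p) ^ 2 := by
  unfold sS sA
  simp only [sum_val, mul_val, neg_val]
  exact Finset.sum_congr rfl fun a _ => Finset.sum_congr rfl fun b _ => by ring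

/-- the squared norm as an element of the algebra -/
lemma sS_val [IsManifold 𝓘(ℝ, V) ∞ M] (hW : finrank ℝ W = finrank ℝ V + 2) {F : M → W}
    (hF : SphImm V F) {N : M → W} (hNs : ContMDiff 𝓘(ℝ, V) 𝓘(ℝ, W) ∞ N)
    (hN : ∀ x, IsUnitNormal V F x (N x)) :
    (sS (fun i => DM hF (stdOrthonormalBasis ℝ W i))
      (fun i => cM hNs (stdOrthonormalBasis ℝ W i))).1 = fun p => normSqA V F p (N p) := by
  funext p
  rw [← (trace_A hW hF hNs hN p).2, sS_apply]
  refine Finset.sum_congr rfl fun a _ => Finset.sum_congr rfl fun b _ => ?_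
  have h1 : dl V F (stdOrthonormalBasis ℝ W a) (fun q => ⟪N q, stdOrthonormalBasis ℝ W b⟫) p
      = ⟪dl V F (stdOrthonormalBasis ℝ W a) N p, stdOrthonormalBasis ℝ W b⟫ :=
    dl_inner _ hNs _ p
  rw [← h1]
  rfl

/-- smoothness of the squared norm of the second fundamental form -/
theorem contMDiff_normSqA [IsManifold 𝓘(ℝ, V) ∞ M] (hW : finrank ℝ W = finrank ℝ V + 2)
    {F : M → W} (hF : SphImm V F) {N : M → W} (hNs : ContMDiff 𝓘(ℝ, V) 𝓘(ℝ, W) ∞ N)
    (hN : ∀ x, IsUnitNormal V F x (N x)) :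
    ContMDiff 𝓘(ℝ, V) 𝓘(ℝ, ℝ) ∞ (fun x => normSqA V F x (N x)) := by
  rw [← sS_val hW hF hNs hN]
  exact (sS (fun i => DM hF (stdOrthonormalBasis ℝ W i))
      (fun i => cM hNs (stdOrthonormalBasis ℝ W i))).2

lemma Lap_val [IsManifold 𝓘(ℝ, V) ∞ M] {F : M → W} (hF : SphImm V F) (h : SmAlg V M) (p : M) :
    (∑ a, DM hF (stdOrthonormalBasis ℝ W a) (DM hF (stdOrthonormalBasis ℝ W a) h)).1 p
      = Lap V F h.1 p := by
  rw [sum_val]
  rfl

/-- evaluation at a point -/
noncomputable def evM (x : M) : SmAlg V M →ₐ[ℝ] ℝ :=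
  (Pi.evalAlgHom ℝ (fun _ : M => ℝ) x).comp (smoothAlg V M).val

lemma evM_apply (x : M) (h : SmAlg V M) : evM x h = h.1 x := rfl

/-- Simons' inequality -/
theorem simons_lap [IsManifold 𝓘(ℝ, V) ∞ M] (hW : finrank ℝ W = finrank ℝ V + 2) {F : M → W}
    (hF : SphImm V F) (hmin : ∀ x n, IsUnitNormal V F x n → meanCurv V F x n = 0)
    {N : M → W} (hNs : ContMDiff 𝓘(ℝ, V) 𝓘(ℝ, W) ∞ N)
    (hN : ∀ x, IsUnitNormal V F x (N x)) (x : M) :
    2 * normSqA V F x (N x) * ((finrank ℝ V : ℝ) - normSqA V F x (N x)) ≤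
      Lap V F (fun x => normSqA V F x (N x)) x := by
  have hs := sysM hW hF hmin hNs hN
  have hfun := sS_val hW hF hNs hN
  have hL := Lap_val hF (sS (fun i => DM hF (stdOrthonormalBasis ℝ W i))
      (fun i => cM hNs (stdOrthonormalBasis ℝ W i))) x
  generalize hDD : (fun i => DM hF (stdOrthonormalBasis ℝ W i)) = DD at hs hfun hL
  generalize hFc : (fun i => cM hF.smooth (stdOrthonormalBasis ℝ W i)) = Fc at hs
  generalize hNc : (fun i => cM hNs (stdOrthonormalBasis ℝ W i)) = Nc at hs hfun hL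
  have hDa : ∀ a, DM hF (stdOrthonormalBasis ℝ W a) = DD a := fun a => by rw [← hDD]
  simp only [hDa] at hL
  rw [hs.simons, hs.sum_DF, Fintype.card_fin, hfun] at hL
  rw [← hL, ← evM_apply]
  have hval : evM x (sS DD Nc) = normSqA V F x (N x) := by
    rw [evM_apply, hfun]
  simp only [map_add, map_mul, map_sub, map_sum, map_pow, map_ofNat, map_natCast, hval]
  have h3 : 0 ≤ ∑ a, ∑ b, ∑ c, evM x (sC DD Fc Nc a b c) ^ 2 :=
    Finset.sum_nonneg fun a _ => Finset.sum_nonneg fun b _ => Finset.sum_nonneg fun c _ =>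
      sq_nonneg _
  have hWr : (finrank ℝ W : ℝ) = finrank ℝ V + 2 := by rw [hW]; push_cast; ring
  rw [hWr]
  linarith

/-- the Laplacian of the components of the normal -/
theorem lap_normal [IsManifold 𝓘(ℝ, V) ∞ M] (hW : finrank ℝ W = finrank ℝ V + 2) {F : M → W}
    (hF : SphImm V F) (hmin : ∀ x n, IsUnitNormal V F x n → meanCurv V F x n = 0)
    {N : M → W} (hNs : ContMDiff 𝓘(ℝ, V) 𝓘(ℝ, W) ∞ N)
    (hN : ∀ x, IsUnitNormal V F x (N x)) (x : M) (b : W) :
    Lap V F (fun x => ⟪N x, b⟫) x = - normSqA V F x (N x) * ⟪N x, b⟫ := by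
  have hs := sysM hW hF hmin hNs hN
  have hfun := sS_val hW hF hNs hN
  have hcM : cM hNs b = ∑ i, ⟪stdOrthonormalBasis ℝ W i, b⟫ • cM hNs (stdOrthonormalBasis ℝ W i) := by
    ext q
    rw [sum_val]
    change ⟪N q, b⟫ = ∑ i, ⟪stdOrthonormalBasis ℝ W i, b⟫ * ⟪N q, stdOrthonormalBasis ℝ W i⟫
    rw [← (stdOrthonormalBasis ℝ W).sum_inner_mul_inner (N q) b]
    exact Finset.sum_congr rfl fun i _ => mul_comm _ _
  have hL := Lap_val hF (cM hNs b) x
  have hb : evM x (cM hNs b) = ⟪N x, b⟫ := rfl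
  have hg : Lap V F (fun x => ⟪N x, b⟫) x = Lap V F (cM hNs b).1 x := rfl
  rw [hg, ← hL, ← hb]
  generalize hDD : (fun i => DM hF (stdOrthonormalBasis ℝ W i)) = DD at hs hfun
  generalize hNc : (fun i => cM hNs (stdOrthonormalBasis ℝ W i)) = Nc at hs hfun
  have hcM' : cM hNs b = ∑ i, ⟪stdOrthonormalBasis ℝ W i, b⟫ • Nc i := by
    rw [hcM, ← hNc]
  rw [hcM']
  have hDa : ∀ a, DM hF (stdOrthonormalBasis ℝ W a) = DD a := fun a => by rw [← hDD]
  simp only [hDa]
  have hval : evM x (sS DD Nc) = normSqA V F x (N x) := by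
    rw [evM_apply, hfun]
  have e1 : ∑ a, DD a (DD a (∑ i, ⟪stdOrthonormalBasis ℝ W i, b⟫ • Nc i))
      = ∑ i, ⟪stdOrthonormalBasis ℝ W i, b⟫ • ∑ a, DD a (DD a (Nc i)) := by
    simp only [map_sum, Derivation.map_smul]
    rw [Finset.sum_comm]
    simp only [← Finset.smul_sum]
  rw [e1, ← evM_apply]
  simp only [hs.lap_N, map_sum, map_smul, map_neg, map_mul, hval, smul_eq_mul]
  rw [Finset.mul_sum]
  exact Finset.sum_congr rfl fun i _ => by ring

end

end Vale.Agent.P224.Gap
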